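import Vale.Agent.P132.Main
import Vale.Agent.P132.TypeThree.Target

/-!
P132: Connes' bicentralizer problem. For every type III_1 factor, given either by the spectra of
its modular operators or by the Connes-Størmer homogeneity, the bicentralizer of every faithful
normal state consists of the scalars.
-/

theorem Vale.Agent.Results.P132.BicentralizerTrivial.result :
    VP132.TargetSpectrum ∧ VP132.Target :=
  ⟨VP132.targetSpectrum, VP132.target⟩
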